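import Vale.Agent.P108.H786.Bridge
import Vale.Agent.P108.Cmb.Zones
import Vale.Agent.P108.H954.Near

/-!
# P108: bookkeeping of the basic mass

`small k τ z = {i : |a_i| < τ}`; masses of the zones of critical times (scale `0`, radius `s₀`), of
the zones of dense windows of non-clean times, and of the maximal functions of the non-clean times;
all of them tend to `0` as `k → ∞`.
-/

open MeasureTheory Filter Set Topology
open scoped ENNReal

namespace Vale.Agent.P108.H786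

open Vale.Agent.P108 Vale.Agent.P108.FT Vale.Agent.P108.Dyn P108C

/-- times at which the coefficient is smaller than `τ` -/
def small (k τ : ℝ) (z : ℝ × ℝ) : Set ℤ := {i | |ao k z i| < τ}

lemma small_mono {k τ τ' : ℝ} (h : τ ≤ τ') (z : ℝ × ℝ) : small k τ z ⊆ small k τ' z :=
  fun _ hi => lt_of_lt_of_le hi h

lemma ao_Tz (k : ℝ) (j : ℤ) (z : ℝ × ℝ) (i : ℤ) : ao k (Tz k j z) i = ao k z (i + j) :=
  a_orb_Tz k j z i

lemma measurable_ao (k : ℝ) (i : ℤ) : Measurable fun z => ao k z i :=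
  (FT.continuous_a k).measurable.comp (measurable_orb k i)

theorem equi_small (k τ : ℝ) : Equi (Tz k) (small k τ) where
  shift j z := by
    ext i
    simp only [small, mem_ofPred_eq, mem_preimage, ao_Tz]
  meas i := measurableSet_lt (measurable_ao k i).abs measurable_const

theorem mass_small {k τ : ℝ} (hk : 1 ≤ k) (hτ : 0 ≤ τ) :
    mQ.real {z | (0 : ℤ) ∈ small k τ z} ≤ τ / k := by
  have h1 : {z | (0 : ℤ) ∈ small k τ z} = {z : ℝ × ℝ | |FT.a k z.1| < τ} := by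
    ext z
    simp only [small, ao, mem_ofPred_eq, orb_zero]
  rw [h1, measureReal_def]
  exact ENNReal.toReal_le_of_le_ofReal (by positivity) (H954.mQ_small hk hτ)

/-- critical times as defects of scale `0` -/
def critP (k τ : ℝ) (z : ℝ × ℝ) (o : ℤ) (j : ℕ) : Prop := j = 0 ∧ o ∈ small k τ z

theorem equiP_crit (k τ : ℝ) : EquiP (Tz k) (critP k τ) where
  shift i z o j := by
    have h := (equi_small k τ).shift i z
    unfold critP
    rw [h]
    rfl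
  meas o j := (MeasurableSet.const _).inter ((equi_small k τ).meas o)

theorem mass_zone_crit {k τ : ℝ} (hk : 1 ≤ k) (hτ : 0 ≤ τ) (Z : ℕ) (R : ℕ → ℕ) :
    mQ.real {z | (0 : ℤ) ∈ zone Z R (critP k τ z)} ≤ (2 * Z * R 0 + 1) * (τ / k) := by
  have h1 := (equiP_crit k τ).measure_zone_le (mp_Tz k) Z R
  have h2 : ∑' j : ℕ, ((2 * Z * R j + 1 : ℕ) : ℝ≥0∞) * mQ {z | critP k τ z 0 j}
      = ((2 * Z * R 0 + 1 : ℕ) : ℝ≥0∞) * mQ {z | (0 : ℤ) ∈ small k τ z} := by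
    rw [tsum_eq_single 0]
    · congr 2
      ext z
      simp [critP]
    · intro j hj
      have : {z : ℝ × ℝ | critP k τ z 0 j} = ∅ := by
        ext z
        simp [critP, hj]
      rw [this, measure_empty, mul_zero]
  rw [h2] at h1
  have h3 := mass_small hk hτ
  rw [measureReal_def] at h3 ⊢
  have h4 := ENNReal.toReal_mono (ENNReal.mul_ne_top (ENNReal.natCast_ne_top _)
    (measure_ne_top mQ _)) h1
  rw [ENNReal.toReal_mul, ENNReal.toReal_natCast] at h4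
  refine h4.trans ?_
  push_cast
  exact mul_le_mul_of_nonneg_left h3 (by positivity)

theorem mass_zone_dense {k τ δ : ℝ} (hk : 1 ≤ k) (hτ : 0 ≤ τ) (hδ : 0 < δ) (Z : ℕ) {R : ℕ → ℕ}
    (hR : ∀ j, 1 ≤ R j) :
    mQ.real {z | (0 : ℤ) ∈ zone Z R (dense δ R (small k τ z))}
      ≤ (1 + 4 * (Z + 1) / δ) * (τ / k) := by
  refine ((equi_small k τ).measure_zone_dense_le (mp_Tz k) hδ Z hR).trans ?_
  exact mul_le_mul_of_nonneg_left (mass_small hk hτ) (by positivity)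

theorem mass_dl {k τ θ : ℝ} (hk : 1 ≤ k) (hτ : 0 ≤ τ) (hθ : 0 < θ) :
    mQ.real {z | (0 : ℤ) ∈ dlInf θ (small k τ z)} ≤ τ / k / θ := by
  rw [le_div_iff₀ hθ, mul_comm]
  exact ((equi_small k τ).maximal_left_inf (mp_Tz k) hθ).trans (mass_small hk hτ)

theorem mass_dr {k τ θ : ℝ} (hk : 1 ≤ k) (hτ : 0 ≤ τ) (hθ : 0 < θ) :
    mQ.real {z | (0 : ℤ) ∈ drInf θ (small k τ z)} ≤ τ / k / θ := by
  rw [le_div_iff₀ hθ, mul_comm]
  exact ((equi_small k τ).maximal_right_inf (mp_Tz k) hθ).trans (mass_small hk hτ)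

theorem zone_or (Z : ℕ) (R : ℕ → ℕ) (P P' : ℤ → ℕ → Prop) :
    zone Z R (fun o j => P o j ∨ P' o j) = zone Z R P ∪ zone Z R P' := by
  ext i
  simp only [zone, mem_ofPred_eq, mem_union]
  constructor
  · rintro ⟨o, j, h1 | h1, h2⟩
    · exact Or.inl ⟨o, j, h1, h2⟩
    · exact Or.inr ⟨o, j, h1, h2⟩
  · rintro (⟨o, j, h1, h2⟩ | ⟨o, j, h1, h2⟩)
    · exact ⟨o, j, Or.inl h1, h2⟩
    · exact ⟨o, j, Or.inr h1, h2⟩

/-- **Basic mass without the peaks**: critical zones, dense zones, non-clean base, dense prefixes of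
non-clean times. -/
theorem basic_mass {k τ₀ τ₁ δ θ : ℝ} (hk : 1 ≤ k) (hτ₀ : 0 ≤ τ₀) (hτ₁ : 0 ≤ τ₁) (hδ : 0 < δ)
    (hθ : 0 < θ) (Z : ℕ) {R : ℕ → ℕ} (hR : ∀ j, 1 ≤ R j) :
    mQ.real ({z | (0 : ℤ) ∈ zone Z R (critP k τ₀ z)} ∪
      {z | (0 : ℤ) ∈ zone Z R (dense δ R (small k τ₁ z))} ∪
      {z | (0 : ℤ) ∈ small k τ₁ z} ∪ {z | (0 : ℤ) ∈ dlInf θ (small k τ₁ z)} ∪
      {z | (0 : ℤ) ∈ drInf θ (small k τ₁ z)})
      ≤ (2 * Z * R 0 + 1) * (τ₀ / k) + (2 + 4 * (Z + 1) / δ + 2 / θ) * (τ₁ / k) := by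
  have h1 := mass_zone_crit hk hτ₀ Z R
  have h2 := mass_zone_dense hk hτ₁ hδ Z hR
  have h3 := mass_small hk hτ₁
  have h4 := mass_dl hk hτ₁ hθ
  have h5 := mass_dr hk hτ₁ hθ
  refine (measureReal_union_le _ _).trans ?_
  refine (add_le_add (measureReal_union_le _ _) le_rfl).trans ?_
  refine (add_le_add (add_le_add (measureReal_union_le _ _) le_rfl) le_rfl).trans ?_
  refine (add_le_add (add_le_add (add_le_add (measureReal_union_le _ _) le_rfl) le_rfl)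
    le_rfl).trans ?_
  have h6 : (2 + 4 * (Z + 1) / δ + 2 / θ) * (τ₁ / k)
      = (1 + 4 * (Z + 1) / δ) * (τ₁ / k) + τ₁ / k + τ₁ / k / θ + τ₁ / k / θ := by ring
  rw [h6]
  linarith

/-! ### limits -/

/-- the minimal radius -/
noncomputable def s0 (b k : ℝ) : ℕ := ⌈k ^ (1 - b) * Real.log k ^ 2⌉₊

lemma tendsto_rpow_log {c : ℝ} (hc : 0 < c) (n : ℕ) :
    Tendsto (fun k : ℝ => k ^ (-c) * Real.log k ^ n) atTop (𝓝 0) := by
  have h1 := (isLittleO_log_rpow_rpow_atTop (s := c) (n : ℝ) hc)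
  have h2 := h1.tendsto_div_nhds_zero
  refine h2.congr' ?_
  filter_upwards [eventually_gt_atTop (1 : ℝ)] with k hk
  rw [Real.rpow_neg (by linarith), Real.rpow_natCast]
  field_simp

/-- `(2 Z s₀ + 1) (C k^β / k) → 0` for `β < b < 1` -/
theorem tendsto_crit {β b : ℝ} (hβ : β < b) (hb : b < 1) (Z C : ℝ) :
    Tendsto (fun k : ℝ => (2 * Z * (s0 b k : ℝ) + 1) * (C * k ^ β / k)) atTop (𝓝 0) := by
  -- s0 ≤ k^(1-b) log² k + 1
  have h1 : Tendsto (fun k : ℝ => 2 * |Z| * |C| * (k ^ (-(b - β)) * Real.log k ^ 2)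
      + (2 * |Z| + 1) * |C| * (k ^ (-(1 - β)) * Real.log k ^ 0)) atTop (𝓝 0) := by
    have h2 := (tendsto_rpow_log (sub_pos.2 hβ) 2).const_mul (2 * |Z| * |C|)
    have h3 := (tendsto_rpow_log (c := 1 - β) (by linarith) 0).const_mul ((2 * |Z| + 1) * |C|)
    simpa using h2.add h3
  refine squeeze_zero_norm' ?_ h1
  filter_upwards [eventually_gt_atTop (1 : ℝ)] with k hk
  have hk0 : 0 < k := by linarith
  have hs : (s0 b k : ℝ) ≤ k ^ (1 - b) * Real.log k ^ 2 + 1 := by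
    unfold s0
    exact (Nat.ceil_lt_add_one (by positivity)).le
  have hs0 : (0 : ℝ) ≤ s0 b k := Nat.cast_nonneg _
  rw [Real.norm_eq_abs, abs_mul]
  have e1 : |2 * Z * (s0 b k : ℝ) + 1| ≤ 2 * |Z| * (k ^ (1 - b) * Real.log k ^ 2 + 1) + 1 := by
    calc |2 * Z * (s0 b k : ℝ) + 1| ≤ |2 * Z * (s0 b k : ℝ)| + |1| := abs_add_le _ _
      _ = 2 * |Z| * s0 b k + 1 := by
          rw [abs_mul, abs_mul, abs_two, abs_of_nonneg hs0, abs_one]
      _ ≤ _ := by gcongr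
  have e2 : |C * k ^ β / k| = |C| * (k ^ β / k) := by
    rw [mul_div_assoc, abs_mul, abs_of_pos (show 0 < k ^ β / k by positivity)]
  rw [e2]
  have e3 : k ^ β / k = k ^ (-(1 - β)) := by
    rw [show -(1 - β) = β - 1 by ring, Real.rpow_sub hk0, Real.rpow_one]
  have e4 : k ^ (1 - b) * k ^ (-(1 - β)) = k ^ (-(b - β)) := by
    rw [← Real.rpow_add hk0]; congr 1; ring
  have hpos : 0 ≤ |C| * (k ^ β / k) := by positivity
  calc |2 * Z * (s0 b k : ℝ) + 1| * (|C| * (k ^ β / k))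
      ≤ (2 * |Z| * (k ^ (1 - b) * Real.log k ^ 2 + 1) + 1) * (|C| * (k ^ β / k)) :=
        mul_le_mul_of_nonneg_right e1 hpos
    _ = 2 * |Z| * |C| * ((k ^ (1 - b) * k ^ (-(1 - β))) * Real.log k ^ 2)
        + (2 * |Z| + 1) * |C| * (k ^ (-(1 - β)) * Real.log k ^ 0) := by
        rw [e3, pow_zero]; ring
    _ = _ := by rw [e4]

/-- `C k^(1-e) / k → 0` -/
theorem tendsto_nc {e : ℝ} (he : 0 < e) (C : ℝ) :
    Tendsto (fun k : ℝ => C * (k ^ (1 - e) / k)) atTop (𝓝 0) := by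
  have h := (tendsto_rpow_log he 0).const_mul C
  rw [mul_zero] at h
  refine h.congr' ?_
  filter_upwards [eventually_gt_atTop (0 : ℝ)] with k hk
  rw [pow_zero, mul_one, show (1 : ℝ) - e = 1 + -e by ring, Real.rpow_add hk, Real.rpow_one]
  field_simp

/-- the total basic mass (without peaks) for thresholds `k^β (1+s)`, `k^(1-e) (1+s)`, `s ≤ 1` -/
noncomputable def Fbas (β b e δ θ : ℝ) (Z : ℕ) (k : ℝ) : ℝ :=
  (2 * Z * (s0 b k : ℝ) + 1) * (2 * k ^ β / k) + (2 + 4 * (Z + 1) / δ + 2 / θ) * (2 * (k ^ (1 - e) / k))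

theorem tendsto_Fbas {β b e : ℝ} (hβ : β < b) (hb : b < 1) (he : 0 < e) (δ θ : ℝ) (Z : ℕ) :
    Tendsto (Fbas β b e δ θ Z) atTop (𝓝 0) := by
  have h1 := tendsto_crit hβ hb Z 2
  have h2 := (tendsto_nc he 2).const_mul (2 + 4 * (Z + 1) / δ + 2 / θ)
  rw [mul_zero] at h2
  have h3 := h1.add h2
  rw [add_zero] at h3
  exact h3

/-- **[BOOK]**: the basic mass without the peaks is at most `Fbas`, which tends to `0`. -/
theorem basic_mass_le {β b e δ θ k s : ℝ} (hk : 1 ≤ k) (hs0 : 0 ≤ s) (hs1 : s ≤ 1)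
    (hδ : 0 < δ) (hθ : 0 < θ) (Z : ℕ) {R : ℕ → ℕ} (hR : ∀ j, 1 ≤ R j) (hR0 : R 0 = s0 b k) :
    mQ.real ({z | (0 : ℤ) ∈ zone Z R (critP k (k ^ β * (1 + s)) z)} ∪
      {z | (0 : ℤ) ∈ zone Z R (dense δ R (small k (k ^ (1 - e) * (1 + s)) z))} ∪
      {z | (0 : ℤ) ∈ small k (k ^ (1 - e) * (1 + s)) z} ∪
      {z | (0 : ℤ) ∈ dlInf θ (small k (k ^ (1 - e) * (1 + s)) z)} ∪
      {z | (0 : ℤ) ∈ drInf θ (small k (k ^ (1 - e) * (1 + s)) z)})
      ≤ Fbas β b e δ θ Z k := by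
  have hk0 : 0 < k := by linarith
  refine (basic_mass hk (by positivity) (by positivity) hδ hθ Z hR).trans ?_
  unfold Fbas
  rw [hR0]
  have h1 : k ^ β * (1 + s) / k ≤ 2 * k ^ β / k := by
    have : 0 ≤ k ^ β := by positivity
    refine div_le_div_of_nonneg_right ?_ hk0.le
    nlinarith
  have h2 : k ^ (1 - e) * (1 + s) / k ≤ 2 * (k ^ (1 - e) / k) := by
    rw [← mul_div_assoc]
    have : 0 ≤ k ^ (1 - e) := by positivity
    refine div_le_div_of_nonneg_right ?_ hk0.le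
    nlinarith
  have h3 : (0 : ℝ) ≤ 2 * Z * (s0 b k : ℝ) + 1 := by positivity
  have h4 : 0 ≤ 2 + 4 * ((Z : ℝ) + 1) / δ + 2 / θ := by positivity
  exact add_le_add (mul_le_mul_of_nonneg_left h1 h3) (mul_le_mul_of_nonneg_left h2 h4)

end Vale.Agent.P108.H786
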