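import Vale.Agent.P108.H786.Equi
import Vale.Agent.P108.Por.PeakMass

/-!
# P108: [NCMASS] and [EMASS]
-/

open MeasureTheory Filter Set Topology
open scoped ENNReal

namespace Vale.Agent.P108.Sk

open Vale.Agent.P108 Vale.Agent.P108.Dyn Vale.Agent.P108.H786 P108C

lemma NC_eq (k s : ℝ) (z : ℝ × ℝ) : NC k s (ao k z) = small k ((1 + s) * k ^ (1 - ce)) z := rfl

lemma Crit_eq (k s : ℝ) (z : ℝ × ℝ) : Crit k s (ao k z) = small k ((1 + s) * k ^ cβ) z := rfl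

lemma ncthr_le {k s : ℝ} (hk : 1 ≤ k) (hs : s ∈ Icc (0 : ℝ) 1) :
    (1 + s) * k ^ (1 - ce) / k ≤ 2 * k ^ (-ce) := by
  have hk0 : 0 < k := by linarith
  rw [sub_eq_add_neg, Real.rpow_add hk0, Real.rpow_one]
  have : 0 < k ^ (-ce) := by positivity
  rw [div_le_iff₀ hk0]
  nlinarith [hs.1, hs.2, mul_pos hk0 this]

/-- eventually `C k^(-2 c) ≤ k^(-c)` -/
lemma ev_le {c C : ℝ} (hc : 0 < c) : ∀ᶠ k : ℝ in atTop, C * k ^ (-(2 * c)) ≤ k ^ (-c) := by
  have h := (tendsto_rpow_neg_atTop hc).const_mul C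
  rw [mul_zero] at h
  filter_upwards [h.eventually (gt_mem_nhds (show (0 : ℝ) < 1 by norm_num)),
    eventually_gt_atTop 0] with k h1 h2
  have h3 : k ^ (-(2 * c)) = k ^ (-c) * k ^ (-c) := by
    rw [← Real.rpow_add h2]; congr 1; ring
  have h4 : 0 < k ^ (-c) := by positivity
  rw [h3, ← mul_assoc]
  nlinarith

lemma ncMax_subset (k s : ℝ) : {z | NcMax k s (ao k z)} ⊆
    {z | (0 : ℤ) ∈ small k ((1 + s) * k ^ (1 - ce)) z} ∪
      {z | (0 : ℤ) ∈ dlInf (1 / 20) (small k ((1 + s) * k ^ (1 - ce)) z)} ∪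
      {z | (0 : ℤ) ∈ drInf (1 / 20) (small k ((1 + s) * k ^ (1 - ce)) z)} := by
  rintro z (h | ⟨y, h1, h2⟩ | ⟨y, h1, h2⟩)
  · exact Or.inl (Or.inl h)
  · refine Or.inl (Or.inr ⟨y, h1, ?_⟩)
    rwa [zero_sub]
  · refine Or.inr ⟨y, h1, ?_⟩
    rwa [zero_add]

lemma nc_masses {k τ : ℝ} (hk : 1 ≤ k) (hτ : 0 ≤ τ) :
    mQ.real {z | (0 : ℤ) ∈ small k τ z} + mQ.real {z | (0 : ℤ) ∈ dlInf (1 / 20) (small k τ z)} +
      mQ.real {z | (0 : ℤ) ∈ drInf (1 / 20) (small k τ z)} ≤ 41 * (τ / k) := by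
  have h1 := mass_small hk hτ
  have h2 := mass_dl (θ := 1 / 20) hk hτ (by norm_num)
  have h3 := mass_dr (θ := 1 / 20) hk hτ (by norm_num)
  generalize τ / k = A at *
  linarith

/-- **[NCMASS]** -/
theorem ncBound : NcBound := by
  obtain ⟨k0, hk0⟩ := eventually_atTop.1 (ev_le (c := 1 / 20000) (C := 82) (by norm_num))
  refine ⟨max k0 1, fun k hk s hs => ?_⟩
  have hk1 : 1 ≤ k := (le_max_right _ _).trans hk
  have hk2 := hk0 k ((le_max_left _ _).trans hk)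
  have hτ : 0 ≤ (1 + s) * k ^ (1 - ce) := by
    have := hs.1
    positivity
  have h0 : (1 + s) * k ^ (1 - ce) / k ≤ 2 * k ^ (-(2 * (1 / 20000)) : ℝ) := by
    refine (ncthr_le hk1 hs).trans (le_of_eq ?_)
    congr 2
    norm_num
  have h1 := mass_small hk1 hτ
  have h2 := nc_masses hk1 hτ
  have hpos : 0 < k ^ (-(2 * (1 / 20000)) : ℝ) := by positivity
  have h4 := measureReal_mono (μ := mQ) (ncMax_subset k s)
  have h5 := h4.trans ((measureReal_union_le _ _).trans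
    (add_le_add (measureReal_union_le _ _) le_rfl))
  exact ⟨h1.trans (by linarith), h5.trans (by linarith)⟩

/-! ### exclusion zones -/

/-- peaks centred at `o` -/
def pkP (k s : ℝ) (z : ℝ × ℝ) (o : ℤ) (l : ℕ) : Prop :=
  ∃ n i j, Peak k s (ao k z) (s0 k * 2 ^ l) o n i j

lemma equiP_pk (k s : ℝ) : EquiP (Tz k) (pkP k s) where
  shift t z o l := by
    unfold pkP
    simp only [ao_Tz_eq, peak_sh]
    constructor
    · rintro ⟨n, i, j, h⟩
      exact ⟨n + t, i + t, j + t, h⟩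
    · rintro ⟨n, i, j, h⟩
      refine ⟨n - t, i - t, j - t, ?_⟩
      simpa only [sub_add_cancel] using h
  meas o l := by
    have h1 : {z | pkP k s z o l} = ⋃ n : ℤ, ⋃ i : ℤ, ⋃ j : ℤ,
        {z | Peak k s (ao k z) (s0 k * 2 ^ l) o n i j} := by
      ext z
      simp only [pkP, mem_ofPred_eq, mem_iUnion]
    rw [h1]
    exact MeasurableSet.iUnion fun n => MeasurableSet.iUnion fun i =>
      MeasurableSet.iUnion fun j => meas_peak k s _ o n i j

lemma eset_subset (k s : ℝ) (z : ℝ × ℝ) : Eset k s (ao k z) ⊆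
    zone cZ (fun l => s0 k * 2 ^ l) (critP k ((1 + s) * k ^ cβ) z) ∪
    zone cZ (fun l => s0 k * 2 ^ l) (dense cδ (fun l => s0 k * 2 ^ l)
      (small k ((1 + s) * k ^ (1 - ce)) z)) ∪
    zone cZ (fun l => s0 k * 2 ^ l) (pkP k s z) := by
  rintro t ⟨o, R, h1 | ⟨l, rfl, h1⟩ | ⟨l, rfl, h1⟩, h2⟩
  · obtain ⟨rfl, h1⟩ := h1
    rw [abs_le] at h2
    refine Or.inl (Or.inl ⟨o, 0, ⟨rfl, h1⟩, ?_, ?_⟩)
    · simp only [pow_zero, mul_one]; linarith [h2.1]
    · simp only [pow_zero, mul_one]; linarith [h2.2]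
  · rw [abs_le] at h2
    exact Or.inl (Or.inr ⟨o, l, h1, by linarith [h2.1], by linarith [h2.2]⟩)
  · rw [abs_le] at h2
    exact Or.inr ⟨o, l, h1, by linarith [h2.1], by linarith [h2.2]⟩

lemma tendsto_log_pow (c : ℝ) (hc : 0 < c) : ∀ᶠ k : ℝ in atTop, Real.log k ^ 2 ≤ k ^ c := by
  have h := tendsto_rpow_log hc 2
  filter_upwards [h.eventually (gt_mem_nhds (show (0 : ℝ) < 1 by norm_num)),
    eventually_gt_atTop (0 : ℝ)] with k h1 h2
  rw [Real.rpow_neg h2.le, inv_mul_eq_div, div_lt_one (by positivity)] at h1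
  exact h1.le

lemma ev_exp {c : ℝ} (hc : 0 < c) : ∀ᶠ k : ℝ in atTop,
    2 * Real.exp (-c * Real.log k ^ 2) ≤ 2 * k ^ (-(1 / 10000) : ℝ) := by
  filter_upwards [eventually_gt_atTop (1 : ℝ),
    Real.tendsto_log_atTop.eventually_ge_atTop (1 / 10000 / c)] with k h1 h2
  have hl : 0 < Real.log k := Real.log_pos h1
  rw [Real.rpow_def_of_pos (by linarith)]
  refine mul_le_mul_of_nonneg_left (Real.exp_le_exp.2 ?_) (by norm_num)
  rw [div_le_iff₀ hc] at h2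
  nlinarith

/-- **[EMASS]** -/
theorem eBound_of_peak (hP : PeakBound) : EBound := by
  obtain ⟨c₁, k1, hc₁, hP⟩ := hP
  have hev1 : ∀ᶠ k : ℝ in atTop, 6 * (404000001 + 1608) * k ^ (-(2 * (1 / 20000)) : ℝ) ≤
      k ^ (-(1 / 20000) : ℝ) := ev_le (by norm_num)
  have hev2 := ev_exp (c := c₁ / 24 * (1 / 96) / 8) (by positivity)
  have hev3 := Por.peak_zone_le (b := cb) (c₁ := c₁ / 24) (c₂ := 1 / 96) (by norm_num)
    (by norm_num) (by positivity) (by norm_num) 6 3 cZ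
  have hev4 := tendsto_log_pow (1 / 200) (by norm_num)
  obtain ⟨k2, h2⟩ := eventually_atTop.1 (hev1.and (hev2.and (hev3.and hev4)))
  refine ⟨max (max k1 k2) 3, fun k hk s hs => ?_⟩
  have hk3 : 3 ≤ k := (le_max_right _ _).trans hk
  have hk1 : 1 ≤ k := by linarith
  have hkk1 : k1 ≤ k := ((le_max_left _ _).trans (le_max_left _ _)).trans hk
  obtain ⟨g1, g2, g3, g4⟩ := h2 k (((le_max_right _ _).trans (le_max_left _ _)).trans hk)
  have hk0 : 0 < k := by linarith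
  have hτ0 : 0 ≤ (1 + s) * k ^ cβ := by
    have := hs.1
    positivity
  have hτ1 : 0 ≤ (1 + s) * k ^ (1 - ce) := by
    have := hs.1
    positivity
  have hlog1 : 1 ≤ Real.log k := by
    rw [Real.le_log_iff_exp_le hk0]
    linarith [Real.exp_one_lt_d9]
  have hs0 : 1 ≤ s0 k := by
    have h1 : (1 : ℝ) ≤ s0 k := by
      refine le_trans ?_ (Nat.le_ceil _)
      have e1 : (1 : ℝ) ≤ k ^ (1 - cb) := Real.one_le_rpow hk1 (by norm_num)
      nlinarith
    exact_mod_cast h1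
  have hcr := mass_zone_crit hk1 hτ0 cZ (fun l => s0 k * 2 ^ l)
  have hde := mass_zone_dense hk1 hτ1 (δ := cδ) (by norm_num) cZ (R := fun l => s0 k * 2 ^ l)
    (fun j => Nat.one_le_iff_ne_zero.2 (by positivity))
  have hpk : mQ.real {z | (0 : ℤ) ∈ zone cZ (fun l => s0 k * 2 ^ l) (pkP k s z)} ≤
      2 * k ^ (-(1 / 10000) : ℝ) := by
    have h1 := g3 (pkP k s) (equiP_pk k s) (fun l => hP k hkk1 s hs l)
    rw [measureReal_def]
    exact (ENNReal.toReal_le_of_le_ofReal (by positivity) h1).trans g2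
  have h3 : mQ.real {z | (0 : ℤ) ∈ Eset k s (ao k z)} ≤
      mQ.real ({z | (0 : ℤ) ∈ zone cZ (fun l => s0 k * 2 ^ l) (critP k ((1 + s) * k ^ cβ) z)} ∪
        {z | (0 : ℤ) ∈ zone cZ (fun l => s0 k * 2 ^ l) (dense cδ (fun l => s0 k * 2 ^ l)
          (small k ((1 + s) * k ^ (1 - ce)) z))} ∪
        {z | (0 : ℤ) ∈ zone cZ (fun l => s0 k * 2 ^ l) (pkP k s z)}) :=
    measureReal_mono fun z hz => eset_subset k s z hz
  have h5 := h3.trans ((measureReal_union_le _ _).trans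
    (add_le_add (measureReal_union_le _ _) le_rfl))
  -- constants
  have hA : (1 + s) * k ^ (1 - ce) / k ≤ 2 * k ^ (-(1 / 10000) : ℝ) := ncthr_le hk1 hs
  have hB : (2 * (cZ : ℝ) * ((s0 k * 2 ^ 0 : ℕ) : ℝ) + 1) * ((1 + s) * k ^ cβ / k) ≤
      1608 * k ^ (-(1 / 10000) : ℝ) := by
    have h7 : (1 : ℝ) ≤ k ^ (197 / 200 : ℝ) := Real.one_le_rpow hk1 (by norm_num)
    have e1 : (s0 k : ℝ) ≤ 2 * k ^ (197 / 200 : ℝ) := by
      have h6 : (s0 k : ℝ) < k ^ (1 - cb) * Real.log k ^ 2 + 1 :=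
        Nat.ceil_lt_add_one (by positivity)
      have h8 : k ^ (1 - cb) * Real.log k ^ 2 ≤ k ^ (197 / 200 : ℝ) := by
        calc k ^ (1 - cb) * Real.log k ^ 2 ≤ k ^ (1 - cb) * k ^ (1 / 200 : ℝ) :=
              mul_le_mul_of_nonneg_left g4 (by positivity)
          _ = k ^ (197 / 200 : ℝ) := by
              rw [← Real.rpow_add hk0]; norm_num
      have h9 : (s0 k : ℝ) ≤ k ^ (197 / 200 : ℝ) + 1 := h6.le.trans (add_le_add h8 le_rfl)
      linarith
    have e2 : (2 * (cZ : ℝ) * ((s0 k * 2 ^ 0 : ℕ) : ℝ) + 1) ≤ 402 * k ^ (197 / 200 : ℝ) := by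
      have h8 : ((cZ : ℕ) : ℝ) = 100 := by norm_num
      rw [h8, pow_zero, mul_one]
      linarith
    have e3 : (1 + s) * k ^ cβ / k ≤ 2 * k ^ (-(99 / 100) : ℝ) := by
      rw [div_le_iff₀ hk0]
      have h6 : k ^ (-(99 / 100) : ℝ) * k = k ^ (1 / 100 : ℝ) := by
        rw [← Real.rpow_add_one hk0.ne']; norm_num
      rw [mul_assoc, h6]
      have h7 : 0 < k ^ (1 / 100 : ℝ) := by positivity
      exact mul_le_mul_of_nonneg_right (by linarith [hs.2]) h7.le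
    have e4 : k ^ (197 / 200 : ℝ) * k ^ (-(99 / 100) : ℝ) ≤ k ^ (-(1 / 10000) : ℝ) := by
      rw [← Real.rpow_add hk0]
      exact Real.rpow_le_rpow_of_exponent_le hk1 (by norm_num)
    have e5 : 0 ≤ (1 + s) * k ^ cβ / k := div_nonneg hτ0 hk0.le
    calc _ ≤ (402 * k ^ (197 / 200 : ℝ)) * (2 * k ^ (-(99 / 100) : ℝ)) :=
          mul_le_mul e2 e3 e5 (by positivity)
      _ = 804 * (k ^ (197 / 200 : ℝ) * k ^ (-(99 / 100) : ℝ)) := by ring
      _ ≤ 804 * k ^ (-(1 / 10000) : ℝ) := mul_le_mul_of_nonneg_left e4 (by norm_num)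
      _ ≤ 1608 * k ^ (-(1 / 10000) : ℝ) :=
          mul_le_mul_of_nonneg_right (by norm_num) (by positivity)
  have hC : (1 + 4 * ((cZ : ℝ) + 1) / cδ) * ((1 + s) * k ^ (1 - ce) / k) ≤
      404000001 * (2 * k ^ (-(1 / 10000) : ℝ)) := by
    have h8 : (1 + 4 * (((cZ : ℕ) : ℝ) + 1) / cδ) = 404000001 := by norm_num
    rw [h8]
    exact mul_le_mul_of_nonneg_left hA (by norm_num)
  have e0 : (-(2 * (1 / 20000)) : ℝ) = -(1 / 10000) := by norm_num
  rw [e0] at g1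
  have hpos : 0 < k ^ (-(1 / 10000) : ℝ) := by positivity
  have h6 := hcr.trans hB
  have h7 := hde.trans hC
  generalize k ^ (-(1 / 10000) : ℝ) = B at *
  generalize k ^ (-(1 / 20000) : ℝ) = B' at *
  linarith

end Vale.Agent.P108.Sk
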