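import Vale.Agent.P108.H786.Final
import Vale.Agent.P108.Dyn.Basic
import Vale.Agent.P108.Cmb.Main

/-!
# P108: the final assembly

From an equivariant bad set `X` of small density and the deterministic statement
that sparse ends of the window `[0, n)` force the Dirichlet solution into the cone,
to positivity of the entropy.
-/

open MeasureTheory Filter Set Topology

namespace Vale.Agent.P108.H786

open Vale.Agent.P108 Vale.Agent.P108.FT Vale.Agent.P108.Dyn P108C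

/-- both ends of the window `[0, n)` are `c₀`-sparse -/
def GoodEnds (c₀ : ℝ) (X : Set ℤ) (n : ℕ) : Prop :=
  (∀ r : ℕ, 1 ≤ r → r ≤ n → (ms X 0 r : ℝ) < c₀ * r) ∧
  (∀ r : ℕ, 1 ≤ r → r ≤ n → (ms X (n - r) n : ℝ) < c₀ * r)

theorem out_le {k T c₀ m : ℝ} (hc₀ : 0 < c₀) {X : ℝ × ℝ → Set ℤ}
    (hX : Equi (Tz k) X) (hm : mQ.real {z | (0 : ℤ) ∈ X z} ≤ m)
    (hdet : ∀ z (n : ℕ), 1 ≤ n → GoodEnds c₀ (X z) n → z ∉ out k T n) (n : ℕ) :
    mQ.real (out k T n) ≤ 2 * m / c₀ := by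
  have hm0 : 0 ≤ m := measureReal_nonneg.trans hm
  rcases Nat.eq_zero_or_pos n with rfl | hn
  · have : out k T 0 = ∅ := by
      ext z
      simp [out, po]
    rw [this]
    simp only [measureReal_empty]
    positivity
  have h1 : out k T n ⊆ {z | (-1 : ℤ) ∈ P108C.dr c₀ n (X z)} ∪ {z | (n : ℤ) ∈ P108C.dl c₀ n (X z)} := by
    intro z hz
    by_contra hcon
    simp only [mem_union, mem_ofPred_eq, not_or] at hcon
    refine hdet z n hn ⟨fun r h1 h2 => ?_, fun r h1 h2 => ?_⟩ hz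
    · by_contra h3
      push Not at h3
      exact hcon.1 ⟨r, h1, h2, by simpa using h3⟩
    · by_contra h3
      push Not at h3
      exact hcon.2 ⟨r, h1, h2, by simpa using h3⟩
  have h2 : mQ.real {z | (-1 : ℤ) ∈ P108C.dr c₀ n (X z)} ≤ m / c₀ := by
    rw [(hX.dr c₀ n).measure_eq (mp_Tz k) (-1), le_div_iff₀ hc₀, mul_comm]
    exact (hX.maximal_right (mp_Tz k) hc₀ n).trans hm
  have h3 : mQ.real {z | (n : ℤ) ∈ P108C.dl c₀ n (X z)} ≤ m / c₀ := by
    rw [(hX.dl c₀ n).measure_eq (mp_Tz k) n, le_div_iff₀ hc₀, mul_comm]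
    exact (hX.maximal_left (mp_Tz k) hc₀ n).trans hm
  calc mQ.real (out k T n)
      ≤ mQ.real ({z | (-1 : ℤ) ∈ P108C.dr c₀ n (X z)} ∪ {z | (n : ℤ) ∈ P108C.dl c₀ n (X z)}) :=
        measureReal_mono h1
    _ ≤ _ := measureReal_union_le _ _
    _ ≤ m / c₀ + m / c₀ := add_le_add h2 h3
    _ = 2 * m / c₀ := by ring

/-- **[ASM]**, quantitative form. -/
theorem ent_ge_of_det {k T c₀ m : ℝ} (hc₀ : 0 < c₀) (hT : 1 ≤ T) {X : ℝ × ℝ → Set ℤ}
    (hX : Equi (Tz k) X) (hm : mQ.real {z | (0 : ℤ) ∈ X z} ≤ m)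
    (hdet : ∀ z (n : ℕ), 1 ≤ n → GoodEnds c₀ (X z) n → z ∉ out k T n) :
    Real.log T - 4 * m / c₀ * (Real.log T + Real.log (CC k)) ≤ ent k := by
  have h := ent_ge_of_cone (k := k) (δ := 2 * m / c₀) hT
    (Frequently.of_forall fun N => by
      calc ∑ n ∈ Finset.range N, mQ.real (out k T n)
          ≤ ∑ n ∈ Finset.range N, 2 * m / c₀ :=
            Finset.sum_le_sum fun n _ => out_le hc₀ hX hm hdet n
        _ = 2 * m / c₀ * N := by simp [mul_comm])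
  calc Real.log T - 4 * m / c₀ * (Real.log T + Real.log (CC k))
      = Real.log T - 2 * (2 * m / c₀) * (Real.log T + Real.log (CC k)) := by ring
    _ ≤ _ := h

/-- **[ASM]**. -/
theorem ent_pos_of_det {k c₀ m : ℝ} (hk : 150 < k) (hc₀ : 0 < c₀) (hmc : 20 * m ≤ c₀)
    {X : ℝ × ℝ → Set ℤ}
    (hX : Equi (Tz k) X) (hm : mQ.real {z | (0 : ℤ) ∈ X z} ≤ m)
    (hdet : ∀ z (n : ℕ), 1 ≤ n → GoodEnds c₀ (X z) n → z ∉ out k (k ^ (3 / 4 : ℝ) / 2) n) :
    0 < ent k ∧ 0 < volume {z | z ∈ Q ∧ 0 < lyap k z} := by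
  refine ent_pos_of_cone hk (Frequently.of_forall fun N => ?_)
  calc ∑ n ∈ Finset.range N, mQ.real (out k (k ^ (3 / 4 : ℝ) / 2) n)
      ≤ ∑ n ∈ Finset.range N, 2 * m / c₀ :=
        Finset.sum_le_sum fun n _ => out_le hc₀ hX hm hdet n
    _ = 2 * m / c₀ * N := by simp [mul_comm]
    _ ≤ 1 / 10 * N := by
        refine mul_le_mul_of_nonneg_right ?_ (Nat.cast_nonneg N)
        rw [div_le_iff₀ hc₀]
        linarith
    _ = (N : ℝ) / 10 := by ring

end Vale.Agent.P108.H786
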