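import Vale.Agent.P108.H786.Bridge

/-!
# P108: assembly with an additional exceptional set at the right end

As `Bridge.lean`, with `X` = closed bad set (density `≤ m`) and `Y` = further bad times (for example
the non-clean ones, density `≤ m'`): the end ratio bound is only needed when `n - 1 ∉ Y`.
-/

open MeasureTheory Filter Set Topology

namespace Vale.Agent.P108.H786

open Vale.Agent.P108 Vale.Agent.P108.FT Vale.Agent.P108.Dyn P108C

theorem out_le' {k T c₀ m m' : ℝ} (hc₀ : 0 < c₀) {X Y : ℝ × ℝ → Set ℤ}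
    (hX : Equi (Tz k) X) (hm : mQ.real {z | (0 : ℤ) ∈ X z} ≤ m)
    (hY : Equi (Tz k) Y) (hm' : mQ.real {z | (0 : ℤ) ∈ Y z} ≤ m')
    (hdet : ∀ z (n : ℕ), 1 ≤ n → GoodEnds c₀ (X z) n → (n - 1 : ℤ) ∉ Y z → z ∉ out k T n) (n : ℕ) :
    mQ.real (out k T n) ≤ 2 * m / c₀ + m' := by
  have hm0 : 0 ≤ m := measureReal_nonneg.trans hm
  have hm0' : 0 ≤ m' := measureReal_nonneg.trans hm'
  rcases Nat.eq_zero_or_pos n with rfl | hn
  · have : out k T 0 = ∅ := by
      ext z
      simp [out, po]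
    rw [this]
    simp only [measureReal_empty]
    positivity
  have h1 : out k T n ⊆ ({z | (-1 : ℤ) ∈ P108C.dr c₀ n (X z)} ∪
      {z | (n : ℤ) ∈ P108C.dl c₀ n (X z)}) ∪ {z | (n - 1 : ℤ) ∈ Y z} := by
    intro z hz
    by_contra hcon
    simp only [mem_union, mem_ofPred_eq, not_or] at hcon
    refine hdet z n hn ⟨fun r h1 h2 => ?_, fun r h1 h2 => ?_⟩ hcon.2 hz
    · by_contra h3
      push Not at h3
      exact hcon.1.1 ⟨r, h1, h2, by simpa using h3⟩
    · by_contra h3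
      push Not at h3
      exact hcon.1.2 ⟨r, h1, h2, by simpa using h3⟩
  have h2 : mQ.real {z | (-1 : ℤ) ∈ P108C.dr c₀ n (X z)} ≤ m / c₀ := by
    rw [(hX.dr c₀ n).measure_eq (mp_Tz k) (-1), le_div_iff₀ hc₀, mul_comm]
    exact (hX.maximal_right (mp_Tz k) hc₀ n).trans hm
  have h3 : mQ.real {z | (n : ℤ) ∈ P108C.dl c₀ n (X z)} ≤ m / c₀ := by
    rw [(hX.dl c₀ n).measure_eq (mp_Tz k) n, le_div_iff₀ hc₀, mul_comm]
    exact (hX.maximal_left (mp_Tz k) hc₀ n).trans hm
  have h4 : mQ.real {z | (n - 1 : ℤ) ∈ Y z} ≤ m' := by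
    rw [hY.measure_eq (mp_Tz k) (n - 1)]
    exact hm'
  calc mQ.real (out k T n)
      ≤ mQ.real (({z | (-1 : ℤ) ∈ P108C.dr c₀ n (X z)} ∪ {z | (n : ℤ) ∈ P108C.dl c₀ n (X z)})
          ∪ {z | (n - 1 : ℤ) ∈ Y z}) := measureReal_mono h1
    _ ≤ _ := measureReal_union_le _ _
    _ ≤ (m / c₀ + m / c₀) + m' := add_le_add ((measureReal_union_le _ _).trans (add_le_add h2 h3)) h4
    _ = 2 * m / c₀ + m' := by ring

/-- **[ASM2]** : lower bound for the entropy from a closed bad set `X` of density `≤ m`, further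
bad times `Y` of density `≤ m'`, and the end ratio bound in terms of continuants. -/
theorem ent_ge_of_continuant' {k T c₀ m m' : ℝ} (hc₀ : 0 < c₀) (hT : 1 ≤ T)
    {X Y : ℝ × ℝ → Set ℤ}
    (hX : Equi (Tz k) X) (hm : mQ.real {z | (0 : ℤ) ∈ X z} ≤ m)
    (hY : Equi (Tz k) Y) (hm' : mQ.real {z | (0 : ℤ) ∈ Y z} ≤ m')
    (hdet : ∀ z (n : ℕ), 1 ≤ n → GoodEnds c₀ (X z) n → (n - 1 : ℤ) ∉ Y z →
      T * |H504.D (ao k z) 0 (n - 2)| ≤ |H504.D (ao k z) 0 (n - 1)|) :
    Real.log T - 2 * (2 * m / c₀ + m') * (Real.log T + Real.log (CC k)) ≤ ent k :=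
  ent_ge_of_cone (k := k) (δ := 2 * m / c₀ + m') hT
    (Frequently.of_forall fun N => by
      calc ∑ n ∈ Finset.range N, mQ.real (out k T n)
          ≤ ∑ n ∈ Finset.range N, (2 * m / c₀ + m') :=
            Finset.sum_le_sum fun n _ => out_le' hc₀ hX hm hY hm' (fun z n hn hg hy hz =>
              absurd (mem_out.1 hz) (not_lt.2 (hdet z n hn hg hy))) n
        _ = (2 * m / c₀ + m') * N := by rw [Finset.sum_const, Finset.card_range, nsmul_eq_mul]; ring)

/-- the exponent version: if `T = k^s` with `0 < s ≤ 1` and the exceptional density is at most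
`s/16` then the entropy is positive, at least `(s/2) log k` -/
theorem ent_pos_of_continuant' {k s c₀ m m' : ℝ} (hk : 8 ≤ k) (hs : 0 < s) (hs1 : s ≤ 1)
    (hc₀ : 0 < c₀) (hsm : 2 * m / c₀ + m' ≤ s / 16)
    {X Y : ℝ × ℝ → Set ℤ}
    (hX : Equi (Tz k) X) (hm : mQ.real {z | (0 : ℤ) ∈ X z} ≤ m)
    (hY : Equi (Tz k) Y) (hm' : mQ.real {z | (0 : ℤ) ∈ Y z} ≤ m')
    (hdet : ∀ z (n : ℕ), 1 ≤ n → GoodEnds c₀ (X z) n → (n - 1 : ℤ) ∉ Y z →
      k ^ s * |H504.D (ao k z) 0 (n - 2)| ≤ |H504.D (ao k z) 0 (n - 1)|) :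
    s / 2 * Real.log k ≤ ent k ∧ 0 < ent k ∧ 0 < volume {z | z ∈ Q ∧ 0 < lyap k z} := by
  have hk0 : 0 < k := by linarith
  have hlogk : 0 < Real.log k := Real.log_pos (by linarith)
  have h1 := ent_ge_of_continuant' hc₀ (Real.one_le_rpow (by linarith) hs.le) hX hm hY hm' hdet
  rw [Real.log_rpow hk0] at h1
  have hCC : Real.log (CC k) ≤ 2 * Real.log k := by
    have h2 : 2 * Real.log k = Real.log (k * k) := by rw [Real.log_mul hk0.ne' hk0.ne']; ring
    rw [h2]
    apply Real.log_le_log (by linarith [one_le_CC k])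
    unfold CC
    rw [abs_of_pos hk0]
    nlinarith [Real.pi_lt_d2]
  have h3 : 2 * (2 * m / c₀ + m') * (s * Real.log k + Real.log (CC k))
      ≤ 2 * (s / 16) * (s * Real.log k + 2 * Real.log k) := by
    have h4 : 0 ≤ s * Real.log k + Real.log (CC k) :=
      add_nonneg (by positivity) (Real.log_nonneg (one_le_CC k))
    have h5 : s * Real.log k + Real.log (CC k) ≤ s * Real.log k + 2 * Real.log k := by linarith
    calc 2 * (2 * m / c₀ + m') * (s * Real.log k + Real.log (CC k))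
        ≤ 2 * (s / 16) * (s * Real.log k + Real.log (CC k)) := by gcongr
      _ ≤ _ := by gcongr
  have h6 : 2 * (s / 16) * (s * Real.log k + 2 * Real.log k) ≤ 3 / 8 * (s * Real.log k) := by
    have h7 : 0 < s * Real.log k := by positivity
    nlinarith
  have h8 : s / 2 * Real.log k ≤ ent k := by
    have h7 : 0 < s * Real.log k := by positivity
    nlinarith
  have h9 : 0 < ent k := lt_of_lt_of_le (by positivity) h8
  exact ⟨h8, h9, (ent_pos_iff k).1 h9⟩

end Vale.Agent.P108.H786
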