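import Vale.Agent.P108.H786.Asm
import Vale.Agent.P108.H504.Cont

/-!
# P108: the Dirichlet solution `po` is the continuant of the orbit

`po k z n = (D[0,n-1], D[0,n-2])` along the orbit of `z`, and the assembly in terms of continuants.
-/

open MeasureTheory Filter Set Topology

namespace Vale.Agent.P108.H786

open Vale.Agent.P108 Vale.Agent.P108.FT Vale.Agent.P108.Dyn P108C

/-- the coefficients along the orbit -/
noncomputable def ao (k : ℝ) (z : ℝ × ℝ) (i : ℤ) : ℝ := FT.a k (orb k z i)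

lemma po_eq (k : ℝ) (z : ℝ × ℝ) (n : ℕ) :
    po k z n = (H504.D (ao k z) 0 (n - 1), H504.D (ao k z) 0 (n - 2)) := by
  induction n with
  | zero =>
    have h1 : H504.D (ao k z) 0 ((0 : ℤ) - 1) = 1 := H504.D_empty _ _
    have h2 : H504.D (ao k z) 0 ((0 : ℤ) - 2) = 0 := H504.D_of_le _ le_rfl
    simp only [po, Nat.cast_zero, h1, h2]
  | succ n ih =>
    have h1 : H504.D (ao k z) 0 (n : ℤ)
        = ao k z n * H504.D (ao k z) 0 (n - 1) - H504.D (ao k z) 0 (n - 2) :=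
      H504.D_right _ (by positivity)
    have h2 : ao k z n = FT.a k ((F k)^[n] z).1 := by
      unfold ao; rw [orb_natCast]
    have e1 : ((n + 1 : ℕ) : ℤ) - 1 = n := by push_cast; ring
    have e2 : ((n + 1 : ℕ) : ℤ) - 2 = n - 1 := by push_cast; ring
    rw [e1, e2, h1, h2]
    simp only [po, ih]

/-- out of the cone, in terms of continuants -/
lemma mem_out {k T : ℝ} {n : ℕ} {z : ℝ × ℝ} :
    z ∈ out k T n ↔ |H504.D (ao k z) 0 (n - 1)| < T * |H504.D (ao k z) 0 (n - 2)| := by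
  simp only [out, mem_ofPred_eq, po_eq]

/-- **[ASM]** in terms of continuants: an equivariant set `X` of density `≤ m ≤ c₀/20` such that
windows `[0, n)` with `c₀`-sparse ends satisfy the end ratio bound. -/
theorem ent_pos_of_continuant {k c₀ m : ℝ} (hk : 150 < k) (hc₀ : 0 < c₀) (hmc : 20 * m ≤ c₀)
    {X : ℝ × ℝ → Set ℤ} (hX : Equi (Tz k) X) (hm : mQ.real {z | (0 : ℤ) ∈ X z} ≤ m)
    (hdet : ∀ z (n : ℕ), 1 ≤ n → GoodEnds c₀ (X z) n →
      k ^ (3 / 4 : ℝ) / 2 * |H504.D (ao k z) 0 (n - 2)| ≤ |H504.D (ao k z) 0 (n - 1)|) :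
    0 < ent k ∧ 0 < volume {z | z ∈ Q ∧ 0 < lyap k z} :=
  ent_pos_of_det hk hc₀ hmc hX hm fun z n hn hg hz =>
    absurd (mem_out.1 hz) (not_lt.2 (hdet z n hn hg))

/-- **[ASM]** quantitative form, in terms of continuants. -/
theorem ent_ge_of_continuant {k T c₀ m : ℝ} (hc₀ : 0 < c₀) (hT : 1 ≤ T)
    {X : ℝ × ℝ → Set ℤ} (hX : Equi (Tz k) X) (hm : mQ.real {z | (0 : ℤ) ∈ X z} ≤ m)
    (hdet : ∀ z (n : ℕ), 1 ≤ n → GoodEnds c₀ (X z) n →
      T * |H504.D (ao k z) 0 (n - 2)| ≤ |H504.D (ao k z) 0 (n - 1)|) :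
    Real.log T - 4 * m / c₀ * (Real.log T + Real.log (CC k)) ≤ ent k :=
  ent_ge_of_det hc₀ hT hX hm fun z n hn hg hz =>
    absurd (mem_out.1 hz) (not_lt.2 (hdet z n hn hg))

end Vale.Agent.P108.H786
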