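import Vale.Agent.P108.Sk.Blocks
import Vale.Agent.P108.H786.Book

/-!
# P108: [EQUI] equivariance and measurability of the defects
-/

open MeasureTheory Filter Set Topology

namespace Vale.Agent.P108.Sk

open Vale.Agent.P108 Vale.Agent.P108.Dyn Vale.Agent.P108.H786 P108C

/-- shifted sequence -/
def sh (a : ℤ → ℝ) (t : ℤ) : ℤ → ℝ := fun i => a (i + t)

lemma S_sh (a : ℤ → ℝ) (t p : ℤ) : ∀ n : ℕ, H504.S (sh a t) p n = H504.S a (p + t) n
  | 0 => rfl
  | 1 => rfl
  | (n + 2) => by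
    rw [H504.S_succ, H504.S_succ, S_sh a t p (n + 1), S_sh a t p n]
    have : p + (n : ℤ) + t = p + t + n := by ring
    simp only [sh, this]

lemma D_sh (a : ℤ → ℝ) (t p q : ℤ) : D (sh a t) p q = D a (p + t) (q + t) := by
  unfold D H504.D
  rw [S_sh]
  congr 2
  ring

lemma sh_sh (a : ℤ → ℝ) (t : ℤ) : sh (sh a t) (-t) = a := by
  funext i
  simp [sh]

lemma ao_Tz_eq (k : ℝ) (t : ℤ) (z : ℝ × ℝ) : ao k (Tz k t z) = sh (ao k z) t :=
  funext fun i => ao_Tz k t z i

/-- shifted decision -/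
def Dec.sft (t : ℤ) : Dec → Dec
  | .crit i => .crit (i + t)
  | .nc i => .nc (i + t)
  | .c1 i j => .c1 (i + t) (j + t)
  | .c2 i j => .c2 (i + t) (j + t)
  | .gr i j => .gr (i + t) (j + t)
  | .pk R i m j => .pk R (i + t) (m + t) (j + t)

lemma low_sh {k s : ℝ} {a : ℤ → ℝ} {t : ℤ} {d : Dec} :
    Low k s (sh a t) d ↔ Low k s a (d.sft t) := by
  unfold Low
  have h1 : d.num (sh a t) = (d.sft t).num a := by
    cases d <;> simp only [Dec.num, Dec.sft, D_sh, sh]
  have h2 : d.den k (sh a t) = (d.sft t).den k a := by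
    cases d with
    | crit i => rfl
    | nc i => rfl
    | c1 i j =>
      simp only [Dec.den, Dec.sft, D_sh]
      rw [show j - 1 + t = j + t - 1 by ring]
    | c2 i j =>
      simp only [Dec.den, Dec.sft, D_sh]
      rw [show i + 1 + t = i + t + 1 by ring]
    | gr i j =>
      simp only [Dec.den, Dec.sft]
      rw [show j + t + 1 - (i + t) = j + 1 - i by ring]
    | pk R i m j =>
      simp only [Dec.den, Dec.sft, D_sh]
      rw [show m - 2 + t = m + t - 2 by ring]
  rw [h1, h2]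

lemma longZones_shift {s : ℕ} {u w : ℤ} {P : Finset ℤ} (h : LongZones s u w P) (t : ℤ) :
    LongZones s (u + t) (w + t) (P.image (· + t)) := by
  refine ⟨?_, ?_⟩
  · intro i hi
    rw [Finset.mem_image] at hi
    obtain ⟨j, hj, rfl⟩ := hi
    have := h.1 hj
    rw [Finset.mem_Ico] at this ⊢
    omega
  · intro i hi
    rw [Finset.mem_image] at hi
    obtain ⟨j, hj, rfl⟩ := hi
    obtain ⟨b, h1, h2, h3⟩ := h.2 j hj
    refine ⟨b + t, by omega, by omega, fun x hx1 hx2 hx3 hx4 => ?_⟩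
    rw [Finset.mem_image]
    exact ⟨x - t, h3 _ (by omega) (by omega) (by omega) (by omega), by ring⟩

lemma ms_image (S : Finset ℤ) (t a b : ℤ) :
    ms (↑(S.image (· + t)) : Set ℤ) (a + t) (b + t) = ms (↑S : Set ℤ) a b := by
  have h1 : (↑(S.image (· + t)) : Set ℤ) = (fun i => i + (-t)) ⁻¹' (↑S : Set ℤ) := by
    ext i
    simp only [Finset.coe_image, mem_image, Finset.mem_coe, mem_preimage]
    constructor
    · rintro ⟨x, hx, rfl⟩
      simpa using hx
    · intro hx
      exact ⟨i + -t, hx, by ring⟩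
  rw [h1, ms_shift]
  congr 1 <;> ring

lemma PeakPat.of_sh {k s : ℝ} {a : ℤ → ℝ} {t : ℤ} {R : ℕ} {m n i j : ℤ} {S : Finset ℤ}
    (h : PeakPat k s (sh a t) R m n i j S) :
    PeakPat k s a R (m + t) (n + t) (i + t) (j + t) (S.image (· + t)) where
  hmn := by have := h.hmn; omega
  obj := by have := h.obj; rw [show n + t - (m + t) + 1 = n - m + 1 by ring]; exact this
  i1 := by have := h.i1; omega
  i2 := by have := h.i2; omega
  j1 := by have := h.j1; omega
  j2 := by have := h.j2; omega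
  grL := by
    have h1 := h.grL
    rw [low_sh] at h1
    simp only [Dec.sft] at h1
    rwa [show m - 2 + t = m + t - 2 by ring] at h1
  grR := by
    have h1 := h.grR
    rw [low_sh] at h1
    exact h1
  spL := by
    intro y hy1 hy2
    have h5 := h.spL y hy1 (by omega)
    rwa [show m + t - (y : ℤ) = (m - y) + t by ring, ms_image]
  spR := by
    intro y hy1 hy2
    have h5 := h.spR y hy1 (by omega)
    rwa [show n + t + 1 = (n + 1) + t by ring,
      show (n + 1) + t + (y : ℤ) = (n + 1 + y) + t by ring, ms_image]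
  coneL := by
    intro p hp1 hp2 hp3
    have h5 := h.coneL (p - t) (by omega) (by omega) (fun y hy1 hy2 => by
      have h6 := hp3 y hy1 (by omega)
      rwa [show p - (y : ℤ) = (p - t - y) + t by ring, show p = (p - t) + t by ring,
        ms_image, show p - t + t - t - (y : ℤ) = p - t - y by ring] at h6)
    rw [low_sh] at h5
    simp only [Dec.sft] at h5
    rwa [show p - t - 1 + t = p - 1 by ring] at h5
  coneR := by
    intro r hr1 hr2 hr3
    have h5 := h.coneR (r - t) (by omega) (by omega) (fun y hy1 hy2 => by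
      have h6 := hr3 y hy1 (by omega)
      rwa [show r + 1 = (r - t + 1) + t by ring,
        show (r - t + 1) + t + (y : ℤ) = (r - t + 1 + y) + t by ring, ms_image] at h6)
    rw [low_sh] at h5
    simp only [Dec.sft] at h5
    rwa [show r - t + 1 + t = r + 1 by ring] at h5
  deep := by
    have h1 := h.deep
    rw [low_sh] at h1
    exact h1

lemma Peak.of_sh {k s : ℝ} {a : ℤ → ℝ} {t : ℤ} {R : ℕ} {m n i j : ℤ}
    (h : Peak k s (sh a t) R m n i j) : Peak k s a R (m + t) (n + t) (i + t) (j + t) := by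
  obtain ⟨S, hS, h⟩ := h
  refine ⟨S.image (· + t), ?_, h.of_sh⟩
  rw [mem_patterns] at hS ⊢
  have := longZones_shift hS t
  rwa [show j + 1 + t = j + t + 1 by ring] at this

lemma peak_sh {k s : ℝ} {a : ℤ → ℝ} {t : ℤ} {R : ℕ} {m n i j : ℤ} :
    Peak k s (sh a t) R m n i j ↔ Peak k s a R (m + t) (n + t) (i + t) (j + t) := by
  refine ⟨Peak.of_sh, fun h => ?_⟩
  rw [← sh_sh a t] at h
  have := h.of_sh
  simpa using this

lemma NC_sh {k s : ℝ} {a : ℤ → ℝ} {t : ℤ} : NC k s (sh a t) = (fun i => i + t) ⁻¹' NC k s a := by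
  ext i
  simp only [NC, mem_ofPred_eq, mem_preimage, low_sh, Dec.sft]

lemma Crit_sh {k s : ℝ} {a : ℤ → ℝ} {t : ℤ} :
    Crit k s (sh a t) = (fun i => i + t) ⁻¹' Crit k s a := by
  ext i
  simp only [Crit, mem_ofPred_eq, mem_preimage, low_sh, Dec.sft]

lemma Defect.of_sh {k s : ℝ} {a : ℤ → ℝ} {t o : ℤ} {R : ℕ} (h : Defect k s (sh a t) o R) :
    Defect k s a (o + t) R := by
  rcases h with ⟨h1, h2⟩ | ⟨l, h1, h2⟩ | ⟨l, h1, n, i, j, h2⟩
  · rw [Crit_sh] at h2
    exact Or.inl ⟨h1, h2⟩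
  · rw [NC_sh, ms_shift] at h2
    refine Or.inr (Or.inl ⟨l, h1, ?_⟩)
    rwa [show o + t - (R : ℤ) = o - R + t by ring, show o + t + (R : ℤ) + 1 = o + R + 1 + t by ring]
  · exact Or.inr (Or.inr ⟨l, h1, n + t, i + t, j + t, h2.of_sh⟩)

lemma defect_sh {k s : ℝ} {a : ℤ → ℝ} {t o : ℤ} {R : ℕ} :
    Defect k s (sh a t) o R ↔ Defect k s a (o + t) R := by
  refine ⟨Defect.of_sh, fun h => ?_⟩
  rw [← sh_sh a t] at h
  have := h.of_sh
  simpa using this

/-! ### measurability -/

lemma measurable_S (k : ℝ) (p : ℤ) : ∀ n : ℕ, Measurable fun z => H504.S (ao k z) p n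
  | 0 => measurable_const
  | 1 => measurable_const
  | (n + 2) => by
    simp only [H504.S_succ]
    exact ((measurable_ao k _).mul (measurable_S k p (n + 1))).sub (measurable_S k p n)

lemma measurable_D (k : ℝ) (p q : ℤ) : Measurable fun z => D (ao k z) p q := measurable_S k p _

lemma meas_low (k s : ℝ) (d : Dec) : MeasurableSet {z | Low k s (ao k z) d} := by
  have h1 : Measurable fun z => d.num (ao k z) := by
    cases d <;> simp only [Dec.num]
    · exact (measurable_ao k _).abs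
    · exact (measurable_ao k _).abs
    · exact (measurable_D k _ _).abs
    · exact (measurable_D k _ _).abs
    · exact (measurable_D k _ _).abs
    · exact (measurable_D k _ _).abs
  have h2 : Measurable fun z => d.den k (ao k z) := by
    cases d <;> simp only [Dec.den]
    · exact measurable_const
    · exact measurable_const
    · exact (measurable_D k _ _).abs.const_mul _
    · exact (measurable_D k _ _).abs.const_mul _
    · exact measurable_const
    · exact ((measurable_D k _ _).abs.mul (measurable_D k _ _).abs).const_mul _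
  exact measurableSet_lt h1 (h2.const_mul _)

lemma meas_NC (k s : ℝ) (i : ℤ) : MeasurableSet {z | i ∈ NC k s (ao k z)} := meas_low k s _

lemma meas_Crit (k s : ℝ) (i : ℤ) : MeasurableSet {z | i ∈ Crit k s (ao k z)} := meas_low k s _

lemma meas_peakPat (k s : ℝ) (R : ℕ) (m n i j : ℤ) (S : Finset ℤ) :
    MeasurableSet {z | PeakPat k s (ao k z) R m n i j S} := by
  have h1 : {z | PeakPat k s (ao k z) R m n i j S} =
      ({_z : ℝ × ℝ | m ≤ n ∧ (cP : ℤ) * (n - m + 1) ≤ R ∧ m - i ≤ R ∧ (R : ℤ) ≤ 2 * (m - i) ∧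
        j - n ≤ R ∧ (R : ℤ) ≤ 2 * (j - n) ∧
        (∀ y : ℕ, 1 ≤ y → i ≤ m - y → (ms (↑S) (m - y) m : ℝ) ≤ c1 * y) ∧
        (∀ y : ℕ, 1 ≤ y → n + y ≤ j → (ms (↑S) (n + 1) (n + 1 + y) : ℝ) ≤ c1 * y)} ∩
      ({z | Low k s (ao k z) (.gr i (m - 2))}ᶜ ∩ ({z | Low k s (ao k z) (.gr m j)}ᶜ ∩
      ({z | Low k s (ao k z) (.pk R i m j)} ∩
        ((⋂ p : ℤ, ⋂ _ : i < p ∧ p < m ∧
          (∀ y : ℕ, 1 ≤ y → i ≤ p - y → (ms (↑S) (p - y) p : ℝ) < c0 * y),
          {z | Low k s (ao k z) (.c1 i (p - 1))}ᶜ) ∩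
        (⋂ r : ℤ, ⋂ _ : n < r ∧ r < j ∧
          (∀ y : ℕ, 1 ≤ y → r + y ≤ j → (ms (↑S) (r + 1) (r + 1 + y) : ℝ) < c0 * y),
          {z | Low k s (ao k z) (.c2 (r + 1) j)}ᶜ)))))) := by
    ext z
    simp only [mem_ofPred_eq, mem_inter_iff, mem_compl_iff, mem_iInter]
    constructor
    · intro h
      exact ⟨⟨h.hmn, h.obj, h.i1, h.i2, h.j1, h.j2, h.spL, h.spR⟩, h.grL, h.grR, h.deep,
        fun p hp => h.coneL p hp.1 hp.2.1 hp.2.2, fun r hr => h.coneR r hr.1 hr.2.1 hr.2.2⟩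
    · rintro ⟨⟨h1, h2, h3, h4, h5, h6, g1, g2⟩, h7, h8, h9, g3, g4⟩
      exact ⟨h1, h2, h3, h4, h5, h6, h7, h8, g1, g2, fun p p1 p2 p3 => g3 p ⟨p1, p2, p3⟩,
        fun r r1 r2 r3 => g4 r ⟨r1, r2, r3⟩, h9⟩
  rw [h1]
  refine (MeasurableSet.const _).inter ((meas_low k s _).compl.inter
    ((meas_low k s _).compl.inter ((meas_low k s _).inter (MeasurableSet.inter ?_ ?_))))
  · exact MeasurableSet.iInter fun p => MeasurableSet.iInter fun _ => (meas_low k s _).compl
  · exact MeasurableSet.iInter fun p => MeasurableSet.iInter fun _ => (meas_low k s _).compl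

lemma meas_peak (k s : ℝ) (R : ℕ) (m n i j : ℤ) :
    MeasurableSet {z | Peak k s (ao k z) R m n i j} := by
  have h1 : {z | Peak k s (ao k z) R m n i j} = ⋃ S : Finset ℤ,
      ({_z : ℝ × ℝ | S ∈ patterns (s0 k) i (j + 1)} ∩
        {z | PeakPat k s (ao k z) R m n i j S}) := by
    ext z
    simp only [Peak, mem_ofPred_eq, mem_iUnion, mem_inter_iff]
  rw [h1]
  exact MeasurableSet.iUnion fun S => (MeasurableSet.const _).inter (meas_peakPat k s R m n i j S)

lemma meas_defect (k s : ℝ) (o : ℤ) (R : ℕ) : MeasurableSet {z | Defect k s (ao k z) o R} := by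
  have h1 : {z | Defect k s (ao k z) o R} =
      ({_z : ℝ × ℝ | R = s0 k} ∩ {z | o ∈ Crit k s (ao k z)}) ∪
      ((⋃ l : ℕ, ({_z : ℝ × ℝ | R = s0 k * 2 ^ l} ∩
        {z | cδ * R ≤ ms (NC k s (ao k z)) (o - R) (o + R + 1)})) ∪
      (⋃ l : ℕ, ({_z : ℝ × ℝ | R = s0 k * 2 ^ l} ∩
        ⋃ n : ℤ, ⋃ i : ℤ, ⋃ j : ℤ, {z | Peak k s (ao k z) R o n i j}))) := by
    ext z
    simp only [Defect, mem_ofPred_eq, mem_inter_iff, mem_union, mem_iUnion]
  rw [h1]
  refine MeasurableSet.union ((MeasurableSet.const _).inter (meas_Crit k s o))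
    (MeasurableSet.union (MeasurableSet.iUnion fun l => ?_) (MeasurableSet.iUnion fun l => ?_))
  · exact (MeasurableSet.const _).inter (meas_ms_ge (fun i => meas_NC k s i) _ _ _)
  · exact (MeasurableSet.const _).inter (MeasurableSet.iUnion fun n =>
      MeasurableSet.iUnion fun i => MeasurableSet.iUnion fun j => meas_peak k s R o n i j)

lemma equi_zones (k s : ℝ) (c : ℕ) :
    Equi (Tz k) (fun z => {t | ∃ o R, Defect k s (ao k z) o R ∧ |t - o| ≤ c * R}) where
  shift t z := by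
    ext i
    simp only [mem_ofPred_eq, mem_preimage, ao_Tz_eq, defect_sh]
    constructor
    · rintro ⟨o, R, h1, h2⟩
      exact ⟨o + t, R, h1, by rwa [show i + t - (o + t) = i - o by ring]⟩
    · rintro ⟨o, R, h1, h2⟩
      refine ⟨o - t, R, ?_, ?_⟩
      · rwa [sub_add_cancel]
      · rwa [show i - (o - t) = i + t - o by ring]
  meas i := by
    have h1 : {z | i ∈ {t : ℤ | ∃ o R, Defect k s (ao k z) o R ∧ |t - o| ≤ c * R}} =
        ⋃ o : ℤ, ⋃ R : ℕ, ({z | Defect k s (ao k z) o R} ∩ {_z : ℝ × ℝ | |i - o| ≤ c * R}) := by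
      ext z
      simp only [mem_ofPred_eq, mem_iUnion, mem_inter_iff]
    rw [h1]
    exact MeasurableSet.iUnion fun o => MeasurableSet.iUnion fun R =>
      (meas_defect k s o R).inter (MeasurableSet.const _)

lemma equi_Bset (k s : ℝ) : Equi (Tz k) (fun z => Bset k s (ao k z)) := by
  have h := equi_zones k s 1
  simp only [Nat.cast_one, one_mul] at h
  exact h

lemma equi_Eset (k s : ℝ) : Equi (Tz k) (fun z => Eset k s (ao k z)) := equi_zones k s cZ

lemma equi_NC (k s : ℝ) : Equi (Tz k) (fun z => NC k s (ao k z)) where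
  shift t z := by rw [ao_Tz_eq, NC_sh]
  meas i := meas_NC k s i

/-- **[EQUI]** -/
theorem equiB : EquiB := fun k s _ => ⟨equi_Bset k s, equi_NC k s⟩

end Vale.Agent.P108.Sk
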