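import Vale.Agent.P108.Bdl.B1

/-!
# P108: the final reduction

If the Dirichlet solution `po k z` of the linearized recursion lies in the cone
`T * |v_{n-1}| ≤ |v_n|` with an average probability `≥ 1 - δ`, then
`ent k ≥ log T - 2 δ (log T + log (3 + 2 π |k|))`.
-/

open MeasureTheory Filter Set Topology

namespace Vale.Agent.P108.H786

open Vale.Agent.P108.FT

/-- the Dirichlet solution is out of the cone of opening `T` at time `n` -/
def out (k T : ℝ) (n : ℕ) : Set (ℝ × ℝ) := {z | |(po k z n).1| < T * |(po k z n).2|}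

/-- size of the Dirichlet solution -/
noncomputable def S (k : ℝ) (z : ℝ × ℝ) (n : ℕ) : ℝ := max |(po k z n).1| |(po k z n).2|

/-- the norm bound of one inverse step -/
noncomputable def CC (k : ℝ) : ℝ := 3 + 2 * Real.pi * |k|

lemma one_le_CC (k : ℝ) : 1 ≤ CC k := by
  have : 0 ≤ 2 * Real.pi * |k| := by positivity
  unfold CC; linarith

lemma S_le_succ (k : ℝ) (z : ℝ × ℝ) (n : ℕ) : S k z n ≤ CC k * S k z (n + 1) := by
  have h1 : (po k z (n + 1)).2 = (po k z n).1 := rfl
  have h2 : (po k z (n + 1)).1 = a k ((F k)^[n] z).1 * (po k z n).1 - (po k z n).2 := rfl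
  set p := (po k z n).1
  set q := (po k z n).2
  set x := a k ((F k)^[n] z).1
  have hx : |x| ≤ 2 + 2 * Real.pi * |k| := abs_a_le _ _
  have h3 : |p| ≤ S k z (n + 1) := by unfold S; rw [h1]; exact le_max_right _ _
  have h4 : |x * p - q| ≤ S k z (n + 1) := by unfold S; rw [← h2]; exact le_max_left _ _
  have hS : 0 ≤ S k z (n + 1) := (abs_nonneg _).trans h3
  unfold S CC
  apply max_le
  · change |p| ≤ _
    have : 0 ≤ 2 * Real.pi * |k| := by positivity
    have h5 : |p| ≤ S k z (n + 1) := h3
    unfold S at h5 hS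
    nlinarith
  · change |q| ≤ _
    have h5 : |q| ≤ |x| * |p| + |x * p - q| := by
      calc |q| = |x * p - (x * p - q)| := by congr 1; ring
        _ ≤ |x * p| + |x * p - q| := abs_sub _ _
        _ = |x| * |p| + |x * p - q| := by rw [abs_mul]
    have h6 : |x| * |p| ≤ (2 + 2 * Real.pi * |k|) * S k z (n + 1) :=
      mul_le_mul hx h3 (abs_nonneg _) ((abs_nonneg _).trans hx)
    have h7 : |q| ≤ (2 + 2 * Real.pi * |k|) * S k z (n + 1) + S k z (n + 1) := by linarith
    unfold S at h7
    linarith

lemma S_pos (k : ℝ) (z : ℝ × ℝ) (n : ℕ) : 0 < S k z n := by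
  induction n with
  | zero => unfold S; simp [po]
  | succ n ih =>
    have h1 := S_le_succ k z n
    have h2 := one_le_CC k
    by_contra h
    push Not at h
    nlinarith

lemma S_succ_ge {k T : ℝ} (hT : 1 ≤ T) {z : ℝ × ℝ} {n : ℕ} (h0 : z ∉ out k T n)
    (h1 : z ∉ out k T (n + 1)) : T * S k z n ≤ S k z (n + 1) := by
  have e1 : (po k z (n + 1)).2 = (po k z n).1 := rfl
  simp only [out, mem_ofPred_eq, not_lt] at h0 h1
  rw [e1] at h1
  have h2 : |(po k z n).2| ≤ |(po k z n).1| := by nlinarith [abs_nonneg (po k z n).2]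
  have h3 : S k z n = |(po k z n).1| := max_eq_left h2
  rw [h3]
  exact h1.trans (le_max_left _ _)

lemma log_S_ge {k T : ℝ} (hT : 1 ≤ T) (z : ℝ × ℝ) (N : ℕ) :
    N * Real.log T - (Real.log T + Real.log (CC k)) *
      ∑ n ∈ Finset.range N, ((out k T n).indicator (fun _ => (1 : ℝ)) z
        + (out k T (n + 1)).indicator (fun _ => (1 : ℝ)) z) ≤ Real.log (S k z N) := by
  have hlT : 0 ≤ Real.log T := Real.log_nonneg hT
  have hlC : 0 ≤ Real.log (CC k) := Real.log_nonneg (one_le_CC k)
  induction N with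
  | zero => simp [S, po]
  | succ N ih =>
    rw [Finset.sum_range_succ]
    have hi0 : 0 ≤ (out k T N).indicator (fun _ => (1 : ℝ)) z :=
      indicator_nonneg (fun _ _ => zero_le_one) z
    have hi1 : 0 ≤ (out k T (N + 1)).indicator (fun _ => (1 : ℝ)) z :=
      indicator_nonneg (fun _ _ => zero_le_one) z
    have hN := S_pos k z N
    have hN1 := S_pos k z (N + 1)
    by_cases hb : z ∈ out k T N ∨ z ∈ out k T (N + 1)
    · have h1 : 1 ≤ (out k T N).indicator (fun _ => (1 : ℝ)) z
          + (out k T (N + 1)).indicator (fun _ => (1 : ℝ)) z := by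
        rcases hb with hb | hb
        · rw [indicator_of_mem hb]; linarith
        · rw [indicator_of_mem hb]; linarith
      have h2 : Real.log (S k z N) ≤ Real.log (CC k) + Real.log (S k z (N + 1)) := by
        rw [← Real.log_mul (by linarith [one_le_CC k]) hN1.ne']
        exact Real.log_le_log hN (S_le_succ k z N)
      push_cast
      have h3 := mul_le_mul_of_nonneg_left h1 (add_nonneg hlT hlC)
      linarith
    · push Not at hb
      have h2 : Real.log T + Real.log (S k z N) ≤ Real.log (S k z (N + 1)) := by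
        rw [← Real.log_mul (by linarith) hN.ne']
        exact Real.log_le_log (by positivity) (S_succ_ge hT hb.1 hb.2)
      rw [indicator_of_notMem hb.1, indicator_of_notMem hb.2]
      push_cast
      linarith

lemma log_S_le_g (k : ℝ) (z : ℝ × ℝ) (n : ℕ) :
    Real.log (S k z n) - Real.log 2 ≤ g k n z := by
  have hS := S_pos k z n
  rw [← Real.log_div hS.ne' (by norm_num)]
  unfold g
  apply Real.log_le_log (by positivity)
  have h3 := (M n k z).le_opNorm (1, 1)
  have h4 : ‖((1 : ℝ), (1 : ℝ))‖ = 1 := by simp [Prod.norm_def]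
  rw [h4, mul_one, M_po] at h3
  have h5 := norm_fst_le ((po k z n).1, (po k z n).1 - (po k z n).2)
  have h6 := norm_snd_le ((po k z n).1, (po k z n).1 - (po k z n).2)
  simp only [Real.norm_eq_abs] at h5 h6
  have h7 : |(po k z n).2| ≤ |(po k z n).1| + |(po k z n).1 - (po k z n).2| := by
    calc |(po k z n).2| = |(po k z n).1 - ((po k z n).1 - (po k z n).2)| := by congr 1; ring
      _ ≤ _ := abs_sub _ _
  have h8 : S k z n ≤ 2 * ‖M n k z‖ := by
    unfold S
    apply max_le
    · linarith [norm_nonneg (M n k z)]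
    · linarith
  linarith

lemma continuous_po (k : ℝ) (n : ℕ) : Continuous (fun z => po k z n) := by
  induction n with
  | zero => exact continuous_const
  | succ n ih =>
    have h1 : Continuous fun z : ℝ × ℝ => a k ((F k)^[n] z).1 :=
      (continuous_a k).comp (continuous_fst.comp (differentiable_F_iter k n).continuous)
    exact ((h1.mul ih.fst).sub ih.snd).prodMk ih.fst

lemma measurableSet_out (k T : ℝ) (n : ℕ) : MeasurableSet (out k T n) := by
  have h := continuous_po k n
  exact (isOpen_lt h.fst.abs (continuous_const.mul h.snd.abs)).measurableSet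

/-- lower bound of the space average in terms of the out-of-cone probabilities -/
theorem u_ge_out {k T : ℝ} (hT : 1 ≤ T) (N : ℕ) :
    N * Real.log T - (Real.log T + Real.log (CC k)) *
      (2 * ∑ n ∈ Finset.range N, mQ.real (out k T n) + 1) - Real.log 2 ≤ u N k := by
  have hlT : 0 ≤ Real.log T := Real.log_nonneg hT
  have hlC : 0 ≤ Real.log (CC k) := Real.log_nonneg (one_le_CC k)
  have hind : ∀ n, Integrable (fun z => (out k T n).indicator (fun _ => (1 : ℝ)) z) mQ :=
    fun n => (integrable_const (1 : ℝ)).indicator (measurableSet_out k T n)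
  have hint : ∀ n, ∫ z, (out k T n).indicator (fun _ => (1 : ℝ)) z ∂mQ = mQ.real (out k T n) := by
    intro n
    rw [integral_indicator (measurableSet_out k T n)]
    simp
  have hg : Integrable (g k N) mQ := by
    refine Integrable.of_bound (C := Real.log (C1 k) * N)
      (measurable_g_z k N).aestronglyMeasurable (Eventually.of_forall fun z => ?_)
    rw [Real.norm_eq_abs, abs_of_nonneg (g_nonneg k N z)]
    exact g_bound k N z
  have hsum : Integrable (fun z => ∑ n ∈ Finset.range N,
      ((out k T n).indicator (fun _ => (1 : ℝ)) z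
        + (out k T (n + 1)).indicator (fun _ => (1 : ℝ)) z)) mQ :=
    integrable_finsetSum _ fun n _ => (hind n).add (hind (n + 1))
  set φ : ℝ × ℝ → ℝ := fun z => ∑ n ∈ Finset.range N,
      ((out k T n).indicator (fun _ => (1 : ℝ)) z
        + (out k T (n + 1)).indicator (fun _ => (1 : ℝ)) z) with hφ
  set B := Real.log T + Real.log (CC k) with hB
  have h1 : ∫ z, ((N * Real.log T - Real.log 2) - B * φ z) ∂mQ ≤ u N k := by
    refine integral_mono ((integrable_const _).sub (hsum.const_mul _)) hg fun z => ?_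
    have h2 := log_S_ge (k := k) hT z N
    have h3 := log_S_le_g k z N
    simp only [hφ, hB]
    linarith
  have h1' : ∫ z, ((N * Real.log T - Real.log 2) - B * φ z) ∂mQ
      = (N * Real.log T - Real.log 2) - B * ∫ z, φ z ∂mQ := by
    rw [integral_sub (integrable_const _) (hsum.const_mul _), integral_const_mul]
    simp
  have h1'' : ∫ z, φ z ∂mQ = ∑ n ∈ Finset.range N,
      ∫ z, ((out k T n).indicator (fun _ => (1 : ℝ)) z
        + (out k T (n + 1)).indicator (fun _ => (1 : ℝ)) z) ∂mQ :=
    integral_finsetSum _ (fun n _ => (hind n).add (hind (n + 1)))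
  rw [h1', h1''] at h1
  have h4 : ∑ n ∈ Finset.range N, ∫ z, ((out k T n).indicator (fun _ => (1 : ℝ)) z
        + (out k T (n + 1)).indicator (fun _ => (1 : ℝ)) z) ∂mQ
      ≤ 2 * ∑ n ∈ Finset.range N, mQ.real (out k T n) + 1 := by
    have h5 : ∀ n, ∫ z, ((out k T n).indicator (fun _ => (1 : ℝ)) z
        + (out k T (n + 1)).indicator (fun _ => (1 : ℝ)) z) ∂mQ
        = mQ.real (out k T n) + mQ.real (out k T (n + 1)) := fun n => by
      rw [integral_add (hind n) (hind (n + 1)), hint, hint]
    rw [Finset.sum_congr rfl fun n _ => h5 n, Finset.sum_add_distrib]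
    have h6 : ∑ n ∈ Finset.range N, mQ.real (out k T (n + 1))
        ≤ ∑ n ∈ Finset.range N, mQ.real (out k T n) + 1 := by
      have h7 := Finset.sum_range_succ' (fun n => mQ.real (out k T n)) N
      have h8 := Finset.sum_range_succ (fun n => mQ.real (out k T n)) N
      have h9 : mQ.real (out k T N) ≤ 1 := measureReal_le_one
      have h10 : 0 ≤ mQ.real (out k T 0) := measureReal_nonneg
      linarith
    linarith
  have h11 := mul_le_mul_of_nonneg_left h4 (add_nonneg hlT hlC)
  linarith

/-- **Final reduction**, general form. -/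
theorem ent_ge_of_cone {k T δ : ℝ} (hT : 1 ≤ T)
    (h : ∃ᶠ N : ℕ in atTop, ∑ n ∈ Finset.range N, mQ.real (out k T n) ≤ δ * N) :
    Real.log T - 2 * δ * (Real.log T + Real.log (CC k)) ≤ ent k := by
  have hlT : 0 ≤ Real.log T := Real.log_nonneg hT
  have hlC : 0 ≤ Real.log (CC k) := Real.log_nonneg (one_le_CC k)
  set B := Real.log T + Real.log (CC k) with hB
  have hB0 : 0 ≤ B := add_nonneg hlT hlC
  have ht := tendsto_u k
  have hc : Tendsto (fun n : ℕ => u n k / n + (B + Real.log 2) / (n : ℝ)) atTop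
      (𝓝 (ent k + 0)) := ht.add (tendsto_const_div_atTop_nhds_zero_nat _)
  rw [add_zero] at hc
  refine ge_of_tendsto_of_frequently hc ?_
  refine (h.and_eventually (eventually_gt_atTop 0)).mono fun N hN => ?_
  obtain ⟨h1, h2⟩ := hN
  have hN0 : (0 : ℝ) < N := by exact_mod_cast h2
  have h3 := u_ge_out (k := k) hT N
  rw [← add_div, le_div_iff₀ hN0]
  have h4 := mul_le_mul_of_nonneg_left h1 hB0
  rw [← hB] at h3
  nlinarith

/-- **Final reduction**: if on average over `n < N` the Dirichlet solution is in the cone of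
opening `k^{3/4}/2` with probability at least `9/10`, then the entropy is positive, and at least
`(2/5) log k - 2`. -/
theorem ent_ge_of_cone' {k : ℝ} (hk : 3 ≤ k)
    (h : ∃ᶠ N : ℕ in atTop, ∑ n ∈ Finset.range N, mQ.real (out k (k ^ (3 / 4 : ℝ) / 2) n)
      ≤ (N : ℝ) / 10) :
    2 / 5 * Real.log k - 2 ≤ ent k := by
  have hk0 : 0 < k := by linarith
  have hlogk : 1 ≤ Real.log k := by
    have h1 : Real.exp 1 ≤ k := by linarith [Real.exp_one_lt_d9]
    have h2 := Real.log_le_log (Real.exp_pos 1) h1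
    rwa [Real.log_exp] at h2
  have hlT : Real.log (k ^ (3 / 4 : ℝ) / 2) = 3 / 4 * Real.log k - Real.log 2 := by
    rw [Real.log_div (by positivity) (by norm_num), Real.log_rpow hk0]
  have hT : 1 ≤ k ^ (3 / 4 : ℝ) / 2 := by
    have h1 : (2 : ℝ) ≤ k ^ (3 / 4 : ℝ) := by
      have h2 : (3 : ℝ) ^ (3 / 4 : ℝ) ≤ k ^ (3 / 4 : ℝ) :=
        Real.rpow_le_rpow (by norm_num) hk (by norm_num)
      have h3 : (2 : ℝ) ≤ (3 : ℝ) ^ (3 / 4 : ℝ) := by
        have h4 : (2 : ℝ) = (16 : ℝ) ^ (1 / 4 : ℝ) := by
          rw [show (16 : ℝ) = 2 ^ (4 : ℝ) by norm_num, ← Real.rpow_mul (by norm_num)]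
          norm_num
        have h5 : (3 : ℝ) ^ (3 / 4 : ℝ) = (27 : ℝ) ^ (1 / 4 : ℝ) := by
          rw [show (27 : ℝ) = 3 ^ (3 : ℝ) by norm_num, ← Real.rpow_mul (by norm_num)]
          norm_num
        rw [h4, h5]
        exact Real.rpow_le_rpow (by norm_num) (by norm_num) (by norm_num)
      exact h3.trans h2
    linarith
  have hCC : Real.log (CC k) ≤ Real.log k + Real.log 8 := by
    rw [← Real.log_mul hk0.ne' (by norm_num)]
    apply Real.log_le_log (by linarith [one_le_CC k])
    unfold CC
    rw [abs_of_pos hk0]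
    nlinarith [Real.pi_lt_d2]
  have h8 : Real.log 8 = 3 * Real.log 2 := by
    rw [show (8 : ℝ) = 2 ^ 3 by norm_num, Real.log_pow]; norm_num
  have hl2 : Real.log 2 < 0.7 := by linarith [Real.log_two_lt_d9]
  have hl2' : 0 < Real.log 2 := Real.log_pos (by norm_num)
  have h2 := ent_ge_of_cone (k := k) (δ := 1 / 10) hT
    (h.mono fun N hN => by rw [one_div, inv_mul_eq_div]; exact hN)
  rw [hlT] at h2
  nlinarith

theorem ent_pos_of_cone {k : ℝ} (hk : 150 < k)
    (h : ∃ᶠ N : ℕ in atTop, ∑ n ∈ Finset.range N, mQ.real (out k (k ^ (3 / 4 : ℝ) / 2) n)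
      ≤ (N : ℝ) / 10) :
    0 < ent k ∧ 0 < volume {z | z ∈ Q ∧ 0 < lyap k z} := by
  have h1 := ent_ge_of_cone' (by linarith) h
  have h2 : 5 < Real.log k := by
    have h3 : Real.exp 5 < k := by
      have h4 : Real.exp 5 = Real.exp 1 ^ 5 := by rw [← Real.exp_nat_mul]; norm_num
      have h5 : Real.exp 1 ^ 5 < 2.7182818286 ^ 5 :=
        pow_lt_pow_left₀ Real.exp_one_lt_d9 (Real.exp_pos 1).le (by norm_num)
      rw [h4]
      refine h5.trans_le ?_
      norm_num
      linarith
    have h6 := Real.log_lt_log (Real.exp_pos 5) h3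
    rwa [Real.log_exp] at h6
  have h3 : 0 < ent k := by linarith
  exact ⟨h3, (ent_pos_iff k).1 h3⟩

end Vale.Agent.P108.H786
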